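import Vale.Agent.P122.AN275.BAbs
import Vale.Agent.P122.H466.Loc

/-! # P122 / AN275 : L1, B1, B2 for the pieces -/

open MeasureTheory Complex Set
open scoped ENNReal NNReal FourierTransform

set_option linter.all false

namespace Vale.Agent.P122.AN275

open Vale.Agent.P122.C2 Vale.Agent.P122.AN

/-- counting on discs -/
def Near1 : Prop := ∀ C0 : ℝ, 1 ≤ C0 → ∃ m : ℕ, ∀ (K n : ℕ) (Q : Set (Fin 2 → ℝ)) (h : (Fin 2 → ℝ) → ℝ)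
  (v : (Fin 2 → ℝ) → Fin 2 → ℝ) (g : Z2 → E3 → ℂ), Srf C0 Q h v → Dat C0 K n Q h v g → ∀ i < K, ∀ (G : Finset Z2)
  (s : Fin 2 → ℝ), ∀ k ∈ G, ∀ J ⊆ G, (∀ l ∈ J, ∃ ξ η, gs K n g (i + 1) k ξ ≠ 0 ∧ gs K n g (i + 1) l η ≠ 0 ∧
    Dual 1 0 (2 ^ ((i + 1) * n)) (2 ^ ((i + 1) * n)) (2 ^ (2 * i * n)) s (ξ - η)) → J.card ≤ m

/-- counting on strips -/
def Near2 (K : ℕ) : Prop := ∀ C0 : ℝ, 1 ≤ C0 → ∃ (c : ℝ) (m : ℕ), 1 ≤ c ∧ ∀ (n : ℕ) (Q : Set (Fin 2 → ℝ)) (h : (Fin 2 → ℝ) → ℝ)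
  (v : (Fin 2 → ℝ) → Fin 2 → ℝ) (g : Z2 → E3 → ℂ), Srf C0 Q h v → Dat C0 K n Q h v g → ∀ i, 1 ≤ i → i < K → ∀ (τ : Z2) (θ : ℝ),
  ∃ ψ : Fin 2 → ℝ, |ψ 0| ≤ c ∧ |ψ 1| ≤ c ∧
    (∀ τ' ∈ kids n τ, ∀ τ'' ∈ kids n τ, |(τ' 0 : ℝ) - τ'' 0| + |(τ' 1 : ℝ) - τ'' 1| ≤
      c * (|ψ 0 * (τ' 0 - τ'' 0) + ψ 1 * (τ' 1 - τ'' 1)| +
        2 ^ ((i + 1) * n) * |fn θ (slp n (i + 1) τ') - fn θ (slp n (i + 1) τ'')| + 1)) ∧
    ∀ G ⊆ kids n τ, ∀ q : ℕ, (∀ r : ℝ, (G.filter fun t => |ψ 0 * t 0 + ψ 1 * t 1 - r| ≤ 1).card ≤ q) →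
      ∀ (s : Fin 2 → ℝ), ∀ k ∈ G, ∀ J ⊆ G, (∀ l ∈ J, ∃ ξ η, gs K n g (i + 1) k ξ ≠ 0 ∧ gs K n g (i + 1) l η ≠ 0 ∧
        Dual 1 θ (2 ^ ((i + 1) * n)) (2 ^ (i * n)) (2 ^ (2 * i * n)) s (ξ - η)) → J.card ≤ m * q

theorem dual_mono {c c' θ ρ1 ρ2 ρ3 : ℝ} {s : Fin 2 → ℝ} {ξ : E3} (h : c ≤ c') (h1 : 0 < ρ1) (h2 : 0 < ρ2) (h3 : 0 < ρ3)
    (hd : Dual c θ ρ1 ρ2 ρ3 s ξ) : Dual c' θ ρ1 ρ2 ρ3 s ξ := by
  obtain ⟨a1, a2, a3⟩ := hd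
  exact ⟨a1.trans (by gcongr), a2.trans (by gcongr), a3.trans (by gcongr)⟩

theorem dual_ex {C0 c : ℝ} {K n : ℕ} {Q : Set (Fin 2 → ℝ)} {h : (Fin 2 → ℝ) → ℝ} {v : (Fin 2 → ℝ) → Fin 2 → ℝ} {g : Z2 → E3 → ℂ}
    (hS : Srf C0 Q h v) (hD : Dat C0 K n Q h v g) (hC : 1 ≤ C0) (hc : cD C0 ≤ c) {i : ℕ} (hi : i ≤ K) (τ : Z2) :
    ∃ ξ0, ∀ ξ, gs K n g i τ ξ ≠ 0 → Dual c 0 (2 ^ (i * n)) (2 ^ (i * n)) (2 ^ (2 * i * n)) (slp n i τ) (ξ - ξ0) := by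
  by_cases h0 : ∃ η, gs K n g i τ η ≠ 0
  · obtain ⟨η, hη⟩ := h0
    refine ⟨η, fun ξ hξ => ?_⟩
    exact dual_mono hc (by positivity) (by positivity) (by positivity) (dual_gs hS hD hC hi hξ hη)
  · refine ⟨0, fun ξ hξ => ?_⟩
    exact absurd ⟨ξ, hξ⟩ h0

/-- [L] -/
theorem lem_L (hREP : StREP) (hWI : StWI) (M : ℕ) (C0 : ℝ) (hC0 : 1 ≤ C0) : ∃ C : ℝ, 0 ≤ C ∧ ∀ (K n : ℕ)
    (Q : Set (Fin 2 → ℝ)) (h : (Fin 2 → ℝ) → ℝ) (v : (Fin 2 → ℝ) → Fin 2 → ℝ) (g : Z2 → E3 → ℂ), Srf C0 Q h v →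
    Dat C0 K n Q h v g → ∀ i < K, ∀ (S : Nd) (τ' : Z2), τ' ∈ kids n S.τ →
      am2 (M + 4) n i S (pie K n g (i + 1) τ') ≤
        ENNReal.ofReal C * am2 M n (i + 1) ((S.sg n).ch (slp n) n i τ') (pie K n g (i + 1) τ') := by
  have hcD : 0 < cD C0 := by unfold cD; positivity
  obtain ⟨C3, hC3, h3⟩ := transfer hREP hWI M (cD C0) 5 hcD (by norm_num)
  refine ⟨C3, hC3, ?_⟩
  intro K n Q h v g hS hD i hi S τ' hk
  obtain ⟨ξ0, hξ0⟩ := dual_ex hS hD hC0 le_rfl (show i + 1 ≤ K from hi) τ'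
  rw [← inv_gs hD.int]
  have hpow : (2:ℝ) ^ (i * n) ≤ 2 ^ ((i + 1) * n) := by
    apply pow_le_pow_right₀ (by norm_num); nlinarith
  have := h3 0 (2 ^ ((i + 1) * n)) (2 ^ ((i + 1) * n)) (2 ^ (2 * (i + 1) * n)) 0 (2 ^ (i * n)) (2 ^ (i * n)) (2 ^ (2 * i * n))
    (slp n i S.τ) (slp n (i + 1) τ') (bp n (i + 1) ((S.sg n).ch (slp n) n i τ')) (bp n i S) ξ0 (gs K n g (i + 1) τ')
    (by positivity) (by positivity) (by positivity) (by positivity) (by positivity) (by positivity)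
    (integrable_gs hD.int _ _) hξ0 (fun x => child_gau n i (S.sg n) τ' hk 0 (2 ^ (i * n)) (2 ^ (i * n)) (by positivity)
      (by positivity) hpow hpow (bp n i S) (bp_near n i S) (bp_two n i S) x)
  unfold am2
  have e1 := pw4 n i
  have e2 := pw4 n (i + 1)
  calc ENNReal.ofReal (((2:ℝ) ^ (4 * i * n))⁻¹) * ∫⁻ z, ‖𝓕⁻ (gs K n g (i + 1) τ') z‖ₑ ^ 2 * wN (M + 4) n i S z
      ≤ ENNReal.ofReal (((2:ℝ) ^ (4 * i * n))⁻¹) * (ENNReal.ofReal (C3 * (2 ^ (i * n) * 2 ^ (i * n) * 2 ^ (2 * i * n)) *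
          (2 ^ ((i + 1) * n) * 2 ^ ((i + 1) * n) * 2 ^ (2 * (i + 1) * n))⁻¹) *
          ∫⁻ y, ‖𝓕⁻ (gs K n g (i + 1) τ') y‖ₑ ^ 2 * wN M n (i + 1) ((S.sg n).ch (slp n) n i τ') y) :=
        mul_le_mul' le_rfl this
    _ = _ := by
        rw [← e1, ← e2, ← mul_assoc, ← mul_assoc, ← ENNReal.ofReal_mul (by positivity), ← ENNReal.ofReal_mul hC3]
        congr 2
        have : (2:ℝ) ^ (4 * i * n) ≠ 0 := by positivity
        field_simp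

/-- [B1] -/
theorem lem_B1 (hREP : StREP) (hORT : StORT) (hWS : StWS) (hWI : StWI) (hN : Near1) (M : ℕ) (C0 : ℝ) (hC0 : 1 ≤ C0) :
    ∃ C : ℝ, 0 ≤ C ∧ ∀ (K n : ℕ)
    (Q : Set (Fin 2 → ℝ)) (h : (Fin 2 → ℝ) → ℝ) (v : (Fin 2 → ℝ) → Fin 2 → ℝ) (g : Z2 → E3 → ℂ), Srf C0 Q h v →
    Dat C0 K n Q h v g → ∀ i < K, ∀ (σ : Nd) (G : Finset Z2), G ⊆ kids n σ.τ → ∀ U : Finset Nd, (∀ S ∈ U, S.sg n = σ) →
      ∑ S ∈ U, am2 (M + 8) n i S (fun z => ∑ τ' ∈ G, pie K n g (i + 1) τ' z) ≤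
        ENNReal.ofReal (C * 2 ^ (2 * n)) * ∑ τ' ∈ G, am2 M n (i + 1) (σ.ch (slp n) n i τ') (pie K n g (i + 1) τ') := by
  have hcD : 1 ≤ max (cD C0) 2 := le_trans (by norm_num) (le_max_right _ _)
  obtain ⟨C, hC, hB⟩ := B_abs hREP hORT hWS hWI M (max (cD C0) 2) hcD
  obtain ⟨m, hm⟩ := hN C0 hC0
  refine ⟨C * m, by positivity, ?_⟩
  intro K n Q h v g hS hD i hi σ G hG U hU
  have hpow : (2:ℝ) ^ (i * n) ≤ 2 ^ ((i + 1) * n) := by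
    apply pow_le_pow_right₀ (by norm_num); nlinarith
  set p : E3 := !₂[2 ^ ((i + 1) * n) * (σ.o 0 : ℝ), 2 ^ ((i + 1) * n) * (σ.o 1 : ℝ), 2 ^ (2 * i * n) * (σ.T : ℝ)] with hp
  have ha0 : (0:ℝ) < 2 ^ ((i + 1) * n) := by positivity
  have hpk : ∀ k : Fin 2, p k.castSucc = 2 ^ ((i + 1) * n) * (σ.o k : ℝ) := by
    intro k; fin_cases k <;> rfl
  have key := hB n i σ 0 (2 ^ ((i + 1) * n)) (2 ^ ((i + 1) * n)) p U G (gs K n g (i + 1)) m hpow hpow le_rfl le_rfl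
    (by intro k; rw [hpk, sub_self, abs_zero]; positivity) rfl hU (by
      intro S hS'
      have hb := bp_near n i S
      rw [hU S hS'] at hb
      have h2 : (bp n i S - p) 2 = 0 := by
        have e : (bp n i S - p) 2 = 2 ^ (2 * i * n) * (S.T : ℝ) - 2 ^ (2 * i * n) * (σ.T : ℝ) := rfl
        rw [e, sg_T (hU S hS'), sub_self]
      have hdv : ∀ k : Fin 2, |dv (slp n i σ.τ) (bp n i S - p) k| / 2 ^ ((i + 1) * n) ≤ 1 := by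
        intro k
        have e : dv (slp n i σ.τ) (bp n i S - p) k = bp n i S k.castSucc - p k.castSucc - slp n i σ.τ k * (bp n i S - p) 2 := by
          fin_cases k <;> rfl
        rw [e, h2, mul_zero, sub_zero, hpk, div_le_one ha0]
        exact hb k
      refine le_trans ?_ (le_max_right _ _)
      unfold gau
      rw [h2, abs_zero, zero_div, fw_zero_frame, fn_zero_frame]
      have := hdv 0
      have := hdv 1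
      linarith) hG (fun τ' _ => integrable_gs hD.int _ _)
    (fun τ' _ => dual_ex hS hD hC0 (le_max_left _ _) (show i + 1 ≤ K from hi) τ')
    (fun k hk J hJ hl => hm K n Q h v g hS hD i hi G _ k hk J hJ hl)
  simp only [inv_gs hD.int] at key
  refine key.trans (le_of_eq ?_)
  congr 2
  rw [pw4, pw2]
  have e : (2:ℝ) ^ ((i + 1) * n) = 2 ^ (i * n) * 2 ^ n := by rw [← pow_add]; congr 1; ring
  have e2 : (2:ℝ) ^ (2 * n) = 2 ^ n * 2 ^ n := by rw [← pow_add]; congr 1; ring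
  rw [e, e2]
  have : (2:ℝ) ^ (i * n) ≠ 0 := by positivity
  field_simp

theorem o_diff {n : ℕ} {S S0 σ : Nd} (h : S.sg n = σ) (h0 : S0.sg n = σ) (k : Fin 2) : |(S.o k : ℝ) - S0.o k| ≤ 2 ^ n := by
  have a : S.o k / 2 ^ n = σ.o k := by rw [← h]; rfl
  have b : S0.o k / 2 ^ n = σ.o k := by rw [← h0]; rfl
  have hm := Int.mul_ediv_add_emod (S.o k) (2 ^ n)
  have hm0 := Int.mul_ediv_add_emod (S0.o k) (2 ^ n)
  have c1 : 0 ≤ S.o k % 2 ^ n := Int.emod_nonneg _ (by positivity)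
  have c2 : S.o k % 2 ^ n < 2 ^ n := Int.emod_lt_of_pos _ (by positivity)
  have d1 : 0 ≤ S0.o k % 2 ^ n := Int.emod_nonneg _ (by positivity)
  have d2 : S0.o k % 2 ^ n < 2 ^ n := Int.emod_lt_of_pos _ (by positivity)
  rw [a] at hm
  rw [b] at hm0
  have h1 : |S.o k - S0.o k| ≤ 2 ^ n := by
    rw [abs_le]; constructor <;> linarith
  exact_mod_cast h1

/-- [B2] -/
theorem lem_B2 (hREP : StREP) (hORT : StORT) (hWS : StWS) (hWI : StWI) {K : ℕ} (hN : Near2 K) (M : ℕ) (C0 : ℝ) (hC0 : 1 ≤ C0) :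
    ∃ C : ℝ, 1 ≤ C ∧ ∀ (n : ℕ)
    (Q : Set (Fin 2 → ℝ)) (h : (Fin 2 → ℝ) → ℝ) (v : (Fin 2 → ℝ) → Fin 2 → ℝ) (g : Z2 → E3 → ℂ), Srf C0 Q h v →
    Dat C0 K n Q h v g → ∀ i, 1 ≤ i → i < K → ∀ (τ : Z2) (θ : ℝ), ∃ ψ : Fin 2 → ℝ, |ψ 0| ≤ C ∧ |ψ 1| ≤ C ∧
    (∀ τ' ∈ kids n τ, ∀ τ'' ∈ kids n τ, |(τ' 0 : ℝ) - τ'' 0| + |(τ' 1 : ℝ) - τ'' 1| ≤
      C * (|ψ 0 * (τ' 0 - τ'' 0) + ψ 1 * (τ' 1 - τ'' 1)| +
        2 ^ ((i + 1) * n) * |fn θ (slp n (i + 1) τ') - fn θ (slp n (i + 1) τ'')| + 1)) ∧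
    ∀ (σ : Nd) (G : Finset Z2) (q : ℕ), σ.τ = τ → G ⊆ kids n τ →
      (∀ r : ℝ, (G.filter fun t => |ψ 0 * t 0 + ψ 1 * t 1 - r| ≤ 1).card ≤ q) →
      ∀ (U : Finset Nd) (r : ℝ), (∀ S ∈ U, S.sg n = σ ∧ |fn θ (fun j => (S.o j : ℝ)) - r| ≤ 1) →
      ∑ S ∈ U, am2 (M + 8) n i S (fun z => ∑ τ' ∈ G, pie K n g (i + 1) τ' z) ≤
        ENNReal.ofReal (C * 2 ^ n * q) * ∑ τ' ∈ G, am2 M n (i + 1) (σ.ch (slp n) n i τ') (pie K n g (i + 1) τ') := by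
  have hcD : 1 ≤ max (cD C0) 4 := le_trans (by norm_num) (le_max_right _ _)
  obtain ⟨C, hC, hB⟩ := B_abs hREP hORT hWS hWI M (max (cD C0) 4) hcD
  obtain ⟨c, m, hc, hm⟩ := hN C0 hC0
  refine ⟨max c (C * m), le_trans hc (le_max_left _ _), ?_⟩
  intro n Q h v g hS hD i hi1 hi τ θ
  obtain ⟨ψ, hψ0, hψ1, hdet, hcnt⟩ := hm n Q h v g hS hD i hi1 hi τ θ
  refine ⟨ψ, hψ0.trans (le_max_left _ _), hψ1.trans (le_max_left _ _), ?_, ?_⟩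
  · intro τ' h1 τ'' h2
    refine (hdet τ' h1 τ'' h2).trans ?_
    gcongr
    exact le_max_left _ _
  intro σ G q hσ hG hq U r hU
  rcases U.eq_empty_or_nonempty with rfl | ⟨S0, hS0⟩
  · simp
  have hpow : (2:ℝ) ^ (i * n) ≤ 2 ^ ((i + 1) * n) := by
    apply pow_le_pow_right₀ (by norm_num); nlinarith
  have hU1 : ∀ S ∈ U, S.sg n = σ := fun S h => (hU S h).1
  have hi0 : (0:ℝ) < 2 ^ (i * n) := by positivity
  have e : (2:ℝ) ^ ((i + 1) * n) = 2 ^ (i * n) * 2 ^ n := by rw [← pow_add]; congr 1; ring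
  have hn0 : (0:ℝ) < 2 ^ n := by positivity
  have key := hB n i σ θ (2 ^ ((i + 1) * n)) (2 ^ (i * n)) (bp n i S0) U G (gs K n g (i + 1)) (m * q) hpow le_rfl le_rfl hpow
    (by
      have := bp_near n i S0
      rwa [hU1 S0 hS0] at this) (by
      have := bp_two n i S0
      rwa [hU1 S0 hS0] at this) hU1 (by
      intro S hS'
      have h2 : (bp n i S - bp n i S0) 2 = 0 := by
        have e : (bp n i S - bp n i S0) 2 = 2 ^ (2 * i * n) * (S.T : ℝ) - 2 ^ (2 * i * n) * (S0.T : ℝ) := rfl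
        rw [e, sg_T (hU1 S hS'), sg_T (hU1 S0 hS0), sub_self]
      have hdv : dv (slp n i σ.τ) (bp n i S - bp n i S0) = fun k => 2 ^ (i * n) * ((S.o k : ℝ) - S0.o k) := by
        ext k
        have e : dv (slp n i σ.τ) (bp n i S - bp n i S0) k =
            (2 ^ (i * n) * (S.o k : ℝ) - 2 ^ (i * n) * (S0.o k : ℝ)) - slp n i σ.τ k * (bp n i S - bp n i S0) 2 := by
          fin_cases k <;> rfl
        rw [e, h2]; ring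
      refine le_trans ?_ (le_max_right _ _)
      unfold gau
      rw [h2, abs_zero, zero_div, hdv]
      have f1 : fw θ (fun k => 2 ^ (i * n) * ((S.o k : ℝ) - S0.o k)) = 2 ^ (i * n) * fw θ (fun k => (S.o k : ℝ) - S0.o k) := by
        unfold fw; ring
      have f2 : fn θ (fun k => 2 ^ (i * n) * ((S.o k : ℝ) - S0.o k)) =
          2 ^ (i * n) * (fn θ (fun k => (S.o k : ℝ)) - fn θ (fun k => (S0.o k : ℝ))) := by
        unfold C2.fn; ring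
      rw [f1, f2, abs_mul, abs_mul, abs_of_pos hi0, e]
      have g1 := abs_fw_le θ (fun k => (S.o k : ℝ) - S0.o k)
      have g2 := o_diff (hU1 S hS') (hU1 S0 hS0) 0
      have g3 := o_diff (hU1 S hS') (hU1 S0 hS0) 1
      have g4 := (hU S hS').2
      have g5 := (hU S0 hS0).2
      have g6 : |fn θ (fun k => (S.o k : ℝ)) - fn θ (fun k => (S0.o k : ℝ))| ≤ 2 := by
        have : fn θ (fun k => (S.o k : ℝ)) - fn θ (fun k => (S0.o k : ℝ)) =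
          (fn θ (fun j => (S.o j : ℝ)) - r) - (fn θ (fun j => (S0.o j : ℝ)) - r) := by ring
        rw [this]
        exact (abs_sub _ _).trans (by linarith)
      have t1 : 2 ^ (i * n) * |fw θ (fun k => (S.o k : ℝ) - S0.o k)| / (2 ^ (i * n) * 2 ^ n) ≤ 2 := by
        rw [mul_div_mul_left _ _ hi0.ne', div_le_iff₀ hn0]
        linarith
      have t2 : 2 ^ (i * n) * |fn θ (fun k => (S.o k : ℝ)) - fn θ (fun k => (S0.o k : ℝ))| / 2 ^ (i * n) ≤ 2 := by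
        rw [mul_div_assoc, mul_div_cancel₀ _ hi0.ne']
        exact g6
      linarith) (by rw [hσ]; exact hG) (fun τ' _ => integrable_gs hD.int _ _)
    (fun τ' _ => dual_ex hS hD hC0 (le_max_left _ _) (show i + 1 ≤ K from hi) τ')
    (fun k hk J hJ hl => hcnt G hG q hq _ k hk J hJ hl)
  simp only [inv_gs hD.int] at key
  refine key.trans (mul_le_mul' (ENNReal.ofReal_le_ofReal ?_) le_rfl)
  rw [pw4, pw2, e]
  have hp : (2:ℝ) ^ (i * n) ≠ 0 := by positivity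
  have e9 : C * (2 ^ (i * n) * 2 ^ n * 2 ^ (i * n) * (2 ^ (i * n)) ^ 2) * (2 ^ (i * n) * 2 ^ (i * n) * (2 ^ (i * n)) ^ 2)⁻¹ *
      ((m * q : ℕ) : ℝ) = (C * m) * 2 ^ n * q := by push_cast; field_simp
  rw [e9]
  gcongr
  exact le_max_right _ _

end Vale.Agent.P122.AN275
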