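import Vale.Agent.P122.AN.Defs

/-! # P122 / AN275 : gauges, transfer of weights from a big box to a small tube -/

open MeasureTheory Complex Set
open scoped ENNReal NNReal FourierTransform

set_option linter.all false

namespace Vale.Agent.P122.AN275

open Vale.Agent.P122.C2 Vale.Agent.P122.AN

/-! ### frames -/

theorem fw_add (θ : ℝ) (u v : Fin 2 → ℝ) : fw θ (u + v) = fw θ u + fw θ v := by
  unfold fw; simp only [Pi.add_apply]; ring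

theorem fn_add (θ : ℝ) (u v : Fin 2 → ℝ) : fn θ (u + v) = fn θ u + fn θ v := by
  unfold C2.fn; simp only [Pi.add_apply]; ring

theorem fw_neg (θ : ℝ) (u : Fin 2 → ℝ) : fw θ (-u) = -fw θ u := by
  unfold fw; simp only [Pi.neg_apply]; ring

theorem fn_neg (θ : ℝ) (u : Fin 2 → ℝ) : fn θ (-u) = -fn θ u := by
  unfold C2.fn; simp only [Pi.neg_apply]; ring

theorem fw_zero_frame (u : Fin 2 → ℝ) : fw 0 u = u 0 := by unfold fw; simp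
theorem fn_zero_frame (u : Fin 2 → ℝ) : fn 0 u = u 1 := by unfold C2.fn; simp

theorem abs_cs (a b x y : ℝ) (ha : |a| ≤ 1) (hb : |b| ≤ 1) : |a * x + b * y| ≤ |x| + |y| := by
  refine (abs_add_le _ _).trans ?_
  rw [abs_mul, abs_mul]
  nlinarith [abs_nonneg x, abs_nonneg y]

theorem abs_fw_le (θ : ℝ) (u : Fin 2 → ℝ) : |fw θ u| ≤ |u 0| + |u 1| :=
  abs_cs _ _ _ _ (Real.abs_cos_le_one θ) (Real.abs_sin_le_one θ)

theorem abs_fn_le (θ : ℝ) (u : Fin 2 → ℝ) : |fn θ u| ≤ |u 0| + |u 1| := by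
  unfold C2.fn
  exact abs_cs _ _ _ _ (by rw [abs_neg]; exact Real.abs_sin_le_one θ) (Real.abs_cos_le_one θ)

theorem abs_zero_le (θ : ℝ) (u : Fin 2 → ℝ) : |u 0| ≤ |fw θ u| + |fn θ u| := by
  have h := Real.cos_sq_add_sin_sq θ
  have e : u 0 = Real.cos θ * fw θ u + (-Real.sin θ) * fn θ u := by
    unfold fw C2.fn
    linear_combination (-(u 0)) * h
  calc |u 0| = |Real.cos θ * fw θ u + (-Real.sin θ) * fn θ u| := by rw [← e]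
    _ ≤ _ := abs_cs _ _ _ _ (Real.abs_cos_le_one θ) (by rw [abs_neg]; exact Real.abs_sin_le_one θ)

theorem abs_one_le (θ : ℝ) (u : Fin 2 → ℝ) : |u 1| ≤ |fw θ u| + |fn θ u| := by
  have h := Real.cos_sq_add_sin_sq θ
  have e : u 1 = Real.sin θ * fw θ u + Real.cos θ * fn θ u := by
    unfold fw C2.fn
    linear_combination (-(u 1)) * h
  calc |u 1| = |Real.sin θ * fw θ u + Real.cos θ * fn θ u| := by rw [← e]
    _ ≤ _ := abs_cs _ _ _ _ (Real.abs_sin_le_one θ) (Real.abs_cos_le_one θ)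

/-! ### gauges -/

theorem dv_add (s : Fin 2 → ℝ) (y z : E3) : dv s (y + z) = dv s y + dv s z := by
  unfold dv
  ext k
  fin_cases k <;> simp <;> ring

theorem dv_neg (s : Fin 2 → ℝ) (z : E3) : dv s (-z) = -dv s z := by
  unfold dv
  ext k
  fin_cases k <;> simp <;> ring

theorem gau_nonneg {θ ρ1 ρ2 ρ3 : ℝ} (h1 : 0 < ρ1) (h2 : 0 < ρ2) (h3 : 0 < ρ3) (s : Fin 2 → ℝ) (z : E3) :
    0 ≤ gau θ ρ1 ρ2 ρ3 s z := by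
  unfold gau; positivity

theorem gau_add {θ ρ1 ρ2 ρ3 : ℝ} (h1 : 0 < ρ1) (h2 : 0 < ρ2) (h3 : 0 < ρ3) (s : Fin 2 → ℝ) (y z : E3) :
    gau θ ρ1 ρ2 ρ3 s (y + z) ≤ gau θ ρ1 ρ2 ρ3 s y + gau θ ρ1 ρ2 ρ3 s z := by
  unfold gau
  rw [dv_add, fw_add, fn_add]
  have a1 := abs_add_le (fw θ (dv s y)) (fw θ (dv s z))
  have a2 := abs_add_le (fn θ (dv s y)) (fn θ (dv s z))
  have a3 : |(y + z) 2| ≤ |y 2| + |z 2| := by
    have : (y + z) 2 = y 2 + z 2 := rfl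
    rw [this]; exact abs_add_le _ _
  have b1 : |fw θ (dv s y) + fw θ (dv s z)| / ρ1 ≤ |fw θ (dv s y)| / ρ1 + |fw θ (dv s z)| / ρ1 := by
    rw [← add_div]; gcongr
  have b2 : |fn θ (dv s y) + fn θ (dv s z)| / ρ2 ≤ |fn θ (dv s y)| / ρ2 + |fn θ (dv s z)| / ρ2 := by
    rw [← add_div]; gcongr
  have b3 : |(y + z) 2| / ρ3 ≤ |y 2| / ρ3 + |z 2| / ρ3 := by
    rw [← add_div]; gcongr
  linarith

theorem gau_neg (θ ρ1 ρ2 ρ3 : ℝ) (s : Fin 2 → ℝ) (z : E3) : gau θ ρ1 ρ2 ρ3 s (-z) = gau θ ρ1 ρ2 ρ3 s z := by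
  unfold gau
  rw [dv_neg, fw_neg, fn_neg, abs_neg, abs_neg]
  have : (-z) 2 = -(z 2) := rfl
  rw [this, abs_neg]

theorem continuous_gau (θ ρ1 ρ2 ρ3 : ℝ) (s : Fin 2 → ℝ) : Continuous (gau θ ρ1 ρ2 ρ3 s) := by
  unfold gau fw C2.fn dv
  simp only [Matrix.cons_val_zero, Matrix.cons_val_one]
  fun_prop

theorem measurable_wg (M : ℕ) (θ ρ1 ρ2 ρ3 : ℝ) (s : Fin 2 → ℝ) : Measurable (wg M θ ρ1 ρ2 ρ3 s) := by
  unfold wg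
  have := (continuous_gau θ ρ1 ρ2 ρ3 s).measurable
  fun_prop

theorem measurable_wg_sub (M : ℕ) (θ ρ1 ρ2 ρ3 : ℝ) (s : Fin 2 → ℝ) (p : E3) :
    Measurable (fun z => wg M θ ρ1 ρ2 ρ3 s (z - p)) := (measurable_wg M θ ρ1 ρ2 ρ3 s).comp (measurable_id.sub_const p)

theorem wg_ne_top (M : ℕ) (θ ρ1 ρ2 ρ3 : ℝ) (s : Fin 2 → ℝ) (z : E3) : wg M θ ρ1 ρ2 ρ3 s z ≠ ⊤ := by
  unfold wg; exact ENNReal.ofReal_ne_top

/-- weights decrease with the exponent -/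
theorem wg_anti {M M' : ℕ} (h : M ≤ M') {θ ρ1 ρ2 ρ3 : ℝ} (h1 : 0 < ρ1) (h2 : 0 < ρ2) (h3 : 0 < ρ3) (s : Fin 2 → ℝ) (z : E3) :
    wg M' θ ρ1 ρ2 ρ3 s z ≤ wg M θ ρ1 ρ2 ρ3 s z := by
  unfold wg
  have := gau_nonneg (θ := θ) h1 h2 h3 s z
  apply ENNReal.ofReal_le_ofReal
  gcongr
  linarith

/-- **product of weights**: if the gauge of the tube (centre `b`) is at most `C1 (1 + gauge of the box)` (centre `p`) -/
theorem wg_mul_le (M : ℕ) {C1 : ℝ} (hC1 : 1 ≤ C1) {θ ρ1 ρ2 ρ3 θ2 R1 R2 R3 : ℝ} (h1 : 0 < ρ1) (h2 : 0 < ρ2) (h3 : 0 < ρ3)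
    (H1 : 0 < R1) (H2 : 0 < R2) (H3 : 0 < R3) (s s' : Fin 2 → ℝ) (b p : E3)
    (hg : ∀ x, gau θ ρ1 ρ2 ρ3 s' (x - b) ≤ C1 * (1 + gau θ2 R1 R2 R3 s (x - p))) (x y : E3) :
    wg M θ ρ1 ρ2 ρ3 s' (x - y) * wg (M + 4) θ2 R1 R2 R3 s (x - p) ≤
      ENNReal.ofReal ((2 * C1) ^ M) * (wg M θ ρ1 ρ2 ρ3 s' (y - b) * wg 4 θ2 R1 R2 R3 s (x - p)) := by
  unfold wg
  have g1 := gau_nonneg (θ := θ) h1 h2 h3 s' (x - y)
  have g2 := gau_nonneg (θ := θ) h1 h2 h3 s' (y - b)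
  have g3 := gau_nonneg (θ := θ) h1 h2 h3 s' (x - b)
  have g4 := gau_nonneg (θ := θ2) H1 H2 H3 s (x - p)
  have g5 := hg x
  have tri : gau θ ρ1 ρ2 ρ3 s' (y - b) ≤ gau θ ρ1 ρ2 ρ3 s' (x - y) + gau θ ρ1 ρ2 ρ3 s' (x - b) := by
    have e : y - b = -(x - y) + (x - b) := by abel
    rw [e]
    refine (gau_add h1 h2 h3 s' _ _).trans (le_of_eq ?_)
    rw [gau_neg]
  set a := gau θ ρ1 ρ2 ρ3 s' (x - y)
  set c := gau θ ρ1 ρ2 ρ3 s' (y - b)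
  set d := gau θ ρ1 ρ2 ρ3 s' (x - b)
  set e := gau θ2 R1 R2 R3 s (x - p)
  rw [← ENNReal.ofReal_mul (by positivity), ← ENNReal.ofReal_mul (by positivity), ← ENNReal.ofReal_mul (by positivity)]
  apply ENNReal.ofReal_le_ofReal
  have k1 : 1 + c ≤ (1 + a) * (2 * C1 * (1 + e)) := by
    have : 1 + c ≤ (1 + a) * (1 + d) := by nlinarith
    refine this.trans ?_
    gcongr
    nlinarith
  have k2 : (1 + c) ^ M ≤ (1 + a) ^ M * ((2 * C1) ^ M * (1 + e) ^ M) := by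
    calc (1 + c) ^ M ≤ ((1 + a) * (2 * C1 * (1 + e))) ^ M := by gcongr
      _ = _ := by rw [mul_pow, mul_pow]
  rw [← mul_inv, ← mul_inv, ← div_eq_mul_inv, le_div_iff₀ (by positivity), inv_mul_le_iff₀ (by positivity)]
  calc (1 + c) ^ M * (1 + e) ^ 4 ≤ ((1 + a) ^ M * ((2 * C1) ^ M * (1 + e) ^ M)) * (1 + e) ^ 4 := by gcongr
    _ = _ := by rw [pow_add]; ring

/-- **transfer**: from a big box to a tube, for a function which is locally constant on the tubes -/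
theorem transfer (hREP : StREP) (hWI : StWI) (M : ℕ) (c C1 : ℝ) (hc : 0 < c) (hC1 : 1 ≤ C1) : ∃ C : ℝ, 0 ≤ C ∧
    ∀ (θ ρ1 ρ2 ρ3 θ2 R1 R2 R3 : ℝ) (s s' : Fin 2 → ℝ) (b p ξ0 : E3) (g : E3 → ℂ), 0 < ρ1 → 0 < ρ2 → 0 < ρ3 →
      0 < R1 → 0 < R2 → 0 < R3 → Integrable g → (∀ ξ, g ξ ≠ 0 → Dual c θ ρ1 ρ2 ρ3 s' (ξ - ξ0)) →
      (∀ x, gau θ ρ1 ρ2 ρ3 s' (x - b) ≤ C1 * (1 + gau θ2 R1 R2 R3 s (x - p))) →
      ∫⁻ x, ‖𝓕⁻ g x‖ₑ ^ 2 * wg (M + 4) θ2 R1 R2 R3 s (x - p) ≤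
        ENNReal.ofReal (C * (R1 * R2 * R3) * (ρ1 * ρ2 * ρ3)⁻¹) * ∫⁻ y, ‖𝓕⁻ g y‖ₑ ^ 2 * wg M θ ρ1 ρ2 ρ3 s' (y - b) := by
  obtain ⟨C2, hC2, hR⟩ := hREP M c hc
  obtain ⟨C3, hC3, hW⟩ := hWI
  refine ⟨C2 * ((2 * C1) ^ M * C3), by positivity, ?_⟩
  intro θ ρ1 ρ2 ρ3 θ2 R1 R2 R3 s s' b p ξ0 g h1 h2 h3 H1 H2 H3 hg hs hgau
  have hcont : Continuous (𝓕⁻ g) := by
    have h : 𝓕⁻ g = fun x => 𝓕 g (-x) := by
      ext x
      exact Real.fourierInv_eq_fourier_neg _ _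
    rw [h]
    exact (VectorFourier.fourierIntegral_continuous Real.continuous_fourierChar
      (by exact continuous_inner) hg).comp continuous_neg
  have hm : Measurable (fun y => ‖𝓕⁻ g y‖ₑ ^ 2) := (hcont.measurable.enorm).pow_const 2
  have mw := measurable_wg M θ ρ1 ρ2 ρ3 s'
  have mW := measurable_wg_sub (M + 4) θ2 R1 R2 R3 s p
  have mW4 := measurable_wg_sub 4 θ2 R1 R2 R3 s p
  calc ∫⁻ x, ‖𝓕⁻ g x‖ₑ ^ 2 * wg (M + 4) θ2 R1 R2 R3 s (x - p)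
      ≤ ∫⁻ x, (ENNReal.ofReal (C2 * (ρ1 * ρ2 * ρ3)⁻¹) * ∫⁻ y, ‖𝓕⁻ g y‖ₑ ^ 2 * wg M θ ρ1 ρ2 ρ3 s' (x - y)) *
          wg (M + 4) θ2 R1 R2 R3 s (x - p) := by
        refine lintegral_mono fun x => ?_
        exact mul_le_mul' (hR θ ρ1 ρ2 ρ3 s' ξ0 g h1 h2 h3 hg hs x) le_rfl
    _ = ∫⁻ x, ∫⁻ y, ENNReal.ofReal (C2 * (ρ1 * ρ2 * ρ3)⁻¹) * (‖𝓕⁻ g y‖ₑ ^ 2 *
          (wg M θ ρ1 ρ2 ρ3 s' (x - y) * wg (M + 4) θ2 R1 R2 R3 s (x - p))) := by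
        refine lintegral_congr fun x => ?_
        rw [lintegral_const_mul' _ _ ENNReal.ofReal_ne_top, mul_assoc, mul_comm (∫⁻ y, _) (wg _ _ _ _ _ _ _),
          ← lintegral_const_mul' _ _ (wg_ne_top _ _ _ _ _ _ _)]
        congr 1
        refine lintegral_congr fun y => ?_
        ring
    _ ≤ ∫⁻ x, ∫⁻ y, ENNReal.ofReal (C2 * (ρ1 * ρ2 * ρ3)⁻¹) * (‖𝓕⁻ g y‖ₑ ^ 2 *
          (ENNReal.ofReal ((2 * C1) ^ M) * (wg M θ ρ1 ρ2 ρ3 s' (y - b) * wg 4 θ2 R1 R2 R3 s (x - p)))) := by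
        refine lintegral_mono fun x => lintegral_mono fun y => ?_
        exact mul_le_mul' le_rfl (mul_le_mul' le_rfl (wg_mul_le M hC1 h1 h2 h3 H1 H2 H3 s s' b p hgau x y))
    _ = ∫⁻ x, (∫⁻ y, ENNReal.ofReal (C2 * (ρ1 * ρ2 * ρ3)⁻¹) * ENNReal.ofReal ((2 * C1) ^ M) * (‖𝓕⁻ g y‖ₑ ^ 2 *
          wg M θ ρ1 ρ2 ρ3 s' (y - b))) * wg 4 θ2 R1 R2 R3 s (x - p) := by
        refine lintegral_congr fun x => ?_
        rw [mul_comm (∫⁻ y, _) (wg _ _ _ _ _ _ _), ← lintegral_const_mul' _ _ (wg_ne_top _ _ _ _ _ _ _)]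
        refine lintegral_congr fun y => ?_
        ring
    _ = (ENNReal.ofReal (C2 * (ρ1 * ρ2 * ρ3)⁻¹) * ENNReal.ofReal ((2 * C1) ^ M) * ∫⁻ y, ‖𝓕⁻ g y‖ₑ ^ 2 *
          wg M θ ρ1 ρ2 ρ3 s' (y - b)) * ∫⁻ x, wg 4 θ2 R1 R2 R3 s (x - p) := by
        rw [lintegral_const_mul _ mW4, lintegral_const_mul']
        exact ENNReal.mul_ne_top ENNReal.ofReal_ne_top ENNReal.ofReal_ne_top
    _ ≤ (ENNReal.ofReal (C2 * (ρ1 * ρ2 * ρ3)⁻¹) * ENNReal.ofReal ((2 * C1) ^ M) * ∫⁻ y, ‖𝓕⁻ g y‖ₑ ^ 2 *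
          wg M θ ρ1 ρ2 ρ3 s' (y - b)) * ENNReal.ofReal (C3 * (R1 * R2 * R3)) := by
        gcongr
        exact hW 4 θ2 R1 R2 R3 s p le_rfl H1 H2 H3
    _ = _ := by
        have e : C2 * ((2 * C1) ^ M * C3) * (R1 * R2 * R3) * (ρ1 * ρ2 * ρ3)⁻¹ =
          (C2 * (ρ1 * ρ2 * ρ3)⁻¹) * (2 * C1) ^ M * (C3 * (R1 * R2 * R3)) := by ring
        have q1 : 0 ≤ C2 * (ρ1 * ρ2 * ρ3)⁻¹ := by positivity
        have q2 : 0 ≤ (2 * C1) ^ M := by positivity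
        rw [e, ENNReal.ofReal_mul (mul_nonneg q1 q2), ENNReal.ofReal_mul q1]
        ring

end Vale.Agent.P122.AN275
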