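import Vale.Agent.P122.AN275.Gau

/-! # P122 / AN275 : geometry of the nodes -/

open MeasureTheory Complex Set
open scoped ENNReal NNReal FourierTransform

set_option linter.all false

namespace Vale.Agent.P122.AN275

open Vale.Agent.P122.C2 Vale.Agent.P122.AN

/-- the base point of the child tube is close to every point of the base of the piece `σ` -/
theorem child_base (n i : ℕ) (σ : Nd) (τ' : Z2) (p : E3) (hp : ∀ k : Fin 2, |p k.castSucc - 2 ^ ((i + 1) * n) * (σ.o k : ℝ)| ≤ 2 ^ ((i + 1) * n))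
    (hp2 : p 2 = 2 ^ (2 * i * n) * (σ.T : ℝ)) :
    gau 0 (2 ^ ((i + 1) * n)) (2 ^ ((i + 1) * n)) (2 ^ (2 * (i + 1) * n)) (slp n (i + 1) τ')
      (p - bp n (i + 1) (σ.ch (slp n) n i τ')) ≤ 5 := by
  set a : ℝ := 2 ^ ((i + 1) * n) with ha
  have ha0 : 0 < a := by positivity
  set b : ℝ := 2 ^ (2 * i * n) with hb
  have hb0 : 0 < b := by positivity
  have hd : (2:ℝ) ^ (2 * (i + 1) * n) = b * 2 ^ (2 * n) := by
    rw [hb, ← pow_add]; congr 1; ring
  have h2n : (0:ℝ) < 2 ^ (2 * n) := by positivity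
  set s' := slp n (i + 1) τ' with hs'
  set r : ℤ := σ.T % 2 ^ (2 * n) with hr
  have hr0 : 0 ≤ r := Int.emod_nonneg _ (by positivity)
  have hr1 : r < 2 ^ (2 * n) := Int.emod_lt_of_pos _ (by positivity)
  have hr0' : (0:ℝ) ≤ r := by exact_mod_cast hr0
  have hr1' : (r:ℝ) ≤ 2 ^ (2 * n) := by exact_mod_cast hr1.le
  have hT : (σ.T : ℝ) = 2 ^ (2 * n) * ((σ.T / 2 ^ (2 * n) : ℤ) : ℝ) + r := by
    have := Int.mul_ediv_add_emod σ.T (2 ^ (2 * n))
    exact_mod_cast this.symm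
  set x : Fin 2 → ℝ := fun k => (σ.o k : ℝ) - (r : ℝ) * 2 ^ (2 * i * n) * s' k / 2 ^ ((i + 1) * n) with hx
  have hxa : ∀ k, a * x k = a * σ.o k - r * b * s' k := by
    intro k
    simp only [hx]
    rw [← ha, ← hb]
    field_simp
  have hfr : ∀ k, |x k - ⌊x k⌋| ≤ 1 := by
    intro k
    rw [abs_of_nonneg (sub_nonneg.2 (Int.floor_le _))]
    linarith [Int.lt_floor_add_one (x k)]
  have hz2 : (p - bp n (i + 1) (σ.ch (slp n) n i τ')) 2 = b * r := by
    have e : (p - bp n (i + 1) (σ.ch (slp n) n i τ')) 2 =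
      p 2 - 2 ^ (2 * (i + 1) * n) * (((σ.T / 2 ^ (2 * n) : ℤ)) : ℝ) := rfl
    rw [e, hp2, hd, hT]; ring
  have hdv : ∀ k : Fin 2, |dv s' (p - bp n (i + 1) (σ.ch (slp n) n i τ')) k| / a ≤ 2 := by
    intro k
    have e : dv s' (p - bp n (i + 1) (σ.ch (slp n) n i τ')) k =
        (p k.castSucc - a * σ.o k) + a * (x k - ⌊x k⌋) := by
      have h0 : dv s' (p - bp n (i + 1) (σ.ch (slp n) n i τ')) k =
          (p k.castSucc - a * (⌊x k⌋ : ℝ)) - s' k * (b * r) := by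
        rw [← hz2]
        fin_cases k <;> rfl
      rw [h0]
      have := hxa k
      linarith
    rw [e, div_le_iff₀ ha0]
    refine (abs_add_le _ _).trans ?_
    rw [abs_mul, abs_of_pos ha0]
    have h1 := hp k
    have h2 := hfr k
    nlinarith
  unfold gau
  rw [fw_zero_frame, fn_zero_frame, hz2]
  have h3 : |b * (r:ℝ)| / 2 ^ (2 * (i + 1) * n) ≤ 1 := by
    rw [abs_of_nonneg (by positivity), hd, div_le_one (by positivity)]
    gcongr
  have h1 := hdv 0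
  have h2 := hdv 1
  linarith

theorem bp_near (n i : ℕ) (S : Nd) (k : Fin 2) :
    |bp n i S k.castSucc - 2 ^ ((i + 1) * n) * ((S.sg n).o k : ℝ)| ≤ 2 ^ ((i + 1) * n) := by
  have e : bp n i S k.castSucc = 2 ^ (i * n) * (S.o k : ℝ) := by fin_cases k <;> rfl
  have e2 : ((S.sg n).o k : ℝ) = ((S.o k / 2 ^ n : ℤ) : ℝ) := rfl
  rw [e, e2]
  have hpow : (2:ℝ) ^ ((i + 1) * n) = 2 ^ (i * n) * 2 ^ n := by rw [← pow_add]; congr 1; ring
  have hm := Int.mul_ediv_add_emod (S.o k) (2 ^ n)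
  have h0 : 0 ≤ S.o k % 2 ^ n := Int.emod_nonneg _ (by positivity)
  have h1 : S.o k % 2 ^ n < 2 ^ n := Int.emod_lt_of_pos _ (by positivity)
  have hm' : (S.o k : ℝ) = 2 ^ n * ((S.o k / 2 ^ n : ℤ) : ℝ) + ((S.o k % 2 ^ n : ℤ) : ℝ) := by exact_mod_cast hm.symm
  have h0' : (0:ℝ) ≤ ((S.o k % 2 ^ n : ℤ) : ℝ) := by exact_mod_cast h0
  have h1' : ((S.o k % 2 ^ n : ℤ) : ℝ) ≤ 2 ^ n := by exact_mod_cast h1.le
  have e3 : 2 ^ (i * n) * (S.o k : ℝ) - 2 ^ ((i + 1) * n) * ((S.o k / 2 ^ n : ℤ) : ℝ) =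
      2 ^ (i * n) * ((S.o k % 2 ^ n : ℤ) : ℝ) := by
    rw [hpow]
    linear_combination (2 ^ (i * n)) * hm'
  rw [e3, abs_of_nonneg (by positivity), hpow]
  gcongr

theorem bp_two (n i : ℕ) (S : Nd) : bp n i S 2 = 2 ^ (2 * i * n) * ((S.sg n).T : ℝ) := rfl

/-- slopes of a cap and of its children -/
theorem slp_kid (n i : ℕ) (τ τ' : Z2) (h : τ' ∈ kids n τ) (k : Fin 2) :
    |slp n (i + 1) τ' k - slp n i τ k| ≤ 1 / 2 ^ (i * n) := by
  unfold kids at h
  rw [Fintype.mem_piFinset] at h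
  have hk := Finset.mem_Ico.1 (h k)
  have h1 : (2:ℝ) ^ n * τ k ≤ τ' k := by exact_mod_cast hk.1
  have h2 : (τ' k : ℝ) ≤ 2 ^ n * (τ k + 1) := by exact_mod_cast hk.2.le
  unfold slp
  have hpow : (2:ℝ) ^ ((i + 1) * n) = 2 ^ (i * n) * 2 ^ n := by rw [← pow_add]; congr 1; ring
  have hn : (0:ℝ) < 2 ^ n := by positivity
  have hi : (0:ℝ) < 2 ^ (i * n) := by positivity
  have e : (τ' k : ℝ) / 2 ^ ((i + 1) * n) - (τ k : ℝ) / 2 ^ (i * n) = ((τ' k : ℝ) - 2 ^ n * τ k) / 2 ^ n / 2 ^ (i * n) := by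
    rw [hpow]; field_simp
  rw [e, abs_of_nonneg (by
    apply div_nonneg (div_nonneg _ hn.le) hi.le
    linarith)]
  gcongr
  rw [div_le_one hn]
  linarith

/-- the gauge of the child tube at a point is controlled by the gauge of any box of the piece `σ` -/
theorem child_gau (n i : ℕ) (σ : Nd) (τ' : Z2) (hk : τ' ∈ kids n σ.τ) (θ R1 R2 : ℝ) (h1 : 0 < R1) (h2 : 0 < R2)
    (h1' : R1 ≤ 2 ^ ((i + 1) * n)) (h2' : R2 ≤ 2 ^ ((i + 1) * n)) (p : E3)
    (hp : ∀ k : Fin 2, |p k.castSucc - 2 ^ ((i + 1) * n) * (σ.o k : ℝ)| ≤ 2 ^ ((i + 1) * n))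
    (hp2 : p 2 = 2 ^ (2 * i * n) * (σ.T : ℝ)) (x : E3) :
    gau 0 (2 ^ ((i + 1) * n)) (2 ^ ((i + 1) * n)) (2 ^ (2 * (i + 1) * n)) (slp n (i + 1) τ')
      (x - bp n (i + 1) (σ.ch (slp n) n i τ')) ≤ 5 * (1 + gau θ R1 R2 (2 ^ (2 * i * n)) (slp n i σ.τ) (x - p)) := by
  have hb := child_base n i σ τ' p hp hp2
  set a : ℝ := 2 ^ ((i + 1) * n) with ha
  have ha0 : 0 < a := by positivity
  set b : ℝ := 2 ^ (2 * i * n) with hbd
  have hb0 : 0 < b := by positivity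
  have hc0 : (0:ℝ) < 2 ^ (2 * (i + 1) * n) := by positivity
  have e : x - bp n (i + 1) (σ.ch (slp n) n i τ') = (x - p) + (p - bp n (i + 1) (σ.ch (slp n) n i τ')) := by abel
  rw [e]
  refine (gau_add ha0 ha0 hc0 _ _ _).trans ?_
  have key : gau 0 a a (2 ^ (2 * (i + 1) * n)) (slp n (i + 1) τ') (x - p) ≤ 5 * gau θ R1 R2 b (slp n i σ.τ) (x - p) := by
    generalize x - p = z
    unfold gau
    rw [fw_zero_frame, fn_zero_frame]
    set d := dv (slp n i σ.τ) z with hd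
    have hz : 0 ≤ |z 2| := abs_nonneg _
    have hk1 : ∀ k : Fin 2, |dv (slp n (i + 1) τ') z k| ≤ |d k| + |z 2| * (1 / 2 ^ (i * n)) := by
      intro k
      have e1 : dv (slp n (i + 1) τ') z k = d k - z 2 * (slp n (i + 1) τ' k - slp n i σ.τ k) := by
        rw [hd]
        unfold dv
        fin_cases k <;> simp <;> ring
      rw [e1]
      refine (abs_sub _ _).trans ?_
      rw [abs_mul]
      gcongr
      exact slp_kid n i σ.τ τ' hk k
    have hd0 := abs_zero_le θ d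
    have hd1 := abs_one_le θ d
    have hpow : b ≤ 2 ^ (i * n) * a := by
      rw [hbd, ha, ← pow_add]
      apply pow_le_pow_right₀ (by norm_num)
      nlinarith
    have t1 : |z 2| * (1 / 2 ^ (i * n)) / a ≤ |z 2| / b := by
      rw [mul_one_div, div_div]
      gcongr
    have t2 : |z 2| / 2 ^ (2 * (i + 1) * n) ≤ |z 2| / b := by
      gcongr
      rw [hbd]
      apply pow_le_pow_right₀ (by norm_num)
      nlinarith
    have t3 : |fw θ d| / a ≤ |fw θ d| / R1 := by gcongr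
    have t4 : |fn θ d| / a ≤ |fn θ d| / R2 := by gcongr
    have u0 : |dv (slp n (i + 1) τ') z 0| / a ≤ |fw θ d| / R1 + |fn θ d| / R2 + |z 2| / b := by
      calc |dv (slp n (i + 1) τ') z 0| / a ≤ ((|fw θ d| + |fn θ d|) + |z 2| * (1 / 2 ^ (i * n))) / a := by
            gcongr
            exact (hk1 0).trans (by linarith)
        _ = |fw θ d| / a + |fn θ d| / a + |z 2| * (1 / 2 ^ (i * n)) / a := by ring
        _ ≤ _ := by linarith
    have u1 : |dv (slp n (i + 1) τ') z 1| / a ≤ |fw θ d| / R1 + |fn θ d| / R2 + |z 2| / b := by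
      calc |dv (slp n (i + 1) τ') z 1| / a ≤ ((|fw θ d| + |fn θ d|) + |z 2| * (1 / 2 ^ (i * n))) / a := by
            gcongr
            exact (hk1 1).trans (by linarith)
        _ = |fw θ d| / a + |fn θ d| / a + |z 2| * (1 / 2 ^ (i * n)) / a := by ring
        _ ≤ _ := by linarith
    have p1 : 0 ≤ |fw θ d| / R1 := by positivity
    have p2 : 0 ≤ |fn θ d| / R2 := by positivity
    have p3 : 0 ≤ |z 2| / b := by positivity
    linarith
  have g0 := gau_nonneg (θ := θ) h1 h2 hb0 (slp n i σ.τ) (x - p)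
  linarith

end Vale.Agent.P122.AN275
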